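import Vale.Agent.P156.H653.Defs
import Mathlib.Analysis.SpecialFunctions.Log.NegMulLog

/-!
# Differential entropy of laws with density; change of variables
-/

open MeasureTheory Real
open scoped ENNReal

noncomputable section

namespace Vale.Agent.P156.H653

variable {V W : Type*} [MeasureSpace V] [MeasureSpace W]

/-- The entropy of a law with density `p` is `∫ negMulLog p`. -/
theorem dent_withDensity [SigmaFinite (volume : Measure V)] {p : V → ℝ} (hp : Measurable p)
    (hp0 : ∀ x, 0 ≤ p x) :
    dent ((volume : Measure V).withDensity fun x => ENNReal.ofReal (p x)) =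
      ∫ x, Real.negMulLog (p x) := by
  have hm : Measurable fun x => ENNReal.ofReal (p x) := hp.ennreal_ofReal
  set ν : Measure V := (volume : Measure V).withDensity fun x => ENNReal.ofReal (p x) with hν
  have hrn : ν.rnDeriv volume =ᵐ[volume] fun x => ENNReal.ofReal (p x) :=
    Measure.rnDeriv_withDensity _ hm
  have hac : ν ≪ (volume : Measure V) := withDensity_absolutelyContinuous _ _
  have hrn' : ν.rnDeriv volume =ᵐ[ν] fun x => ENNReal.ofReal (p x) := hac.ae_le hrn
  unfold dent
  have h1 : ∫ x, Real.log ((ν.rnDeriv volume x).toReal) ∂ν = ∫ x, Real.log (p x) ∂ν := by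
    refine integral_congr_ae ?_
    filter_upwards [hrn'] with x hx
    rw [hx, ENNReal.toReal_ofReal (hp0 x)]
  rw [h1, hν, integral_withDensity_eq_integral_toReal_smul hm (by simp)]
  rw [← integral_neg]
  refine integral_congr_ae (Filter.Eventually.of_forall fun x => ?_)
  simp only [ENNReal.toReal_ofReal (hp0 x), smul_eq_mul, Real.negMulLog]
  ring

/-- Image of a law with density under a measurable equivalence. -/
lemma map_withDensity_equiv (μ : Measure V) (e : V ≃ᵐ W) {f : V → ℝ≥0∞} (hf : Measurable f) :
    (μ.withDensity f).map e = (μ.map e).withDensity (f ∘ e.symm) := by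
  ext s hs
  rw [Measure.map_apply e.measurable hs, withDensity_apply _ (e.measurable hs),
    withDensity_apply _ hs, ← lintegral_indicator hs, lintegral_map
      ((hf.comp e.symm.measurable).indicator hs) e.measurable,
    ← lintegral_indicator (e.measurable hs)]
  refine lintegral_congr fun x => ?_
  by_cases hx : e x ∈ s
  · rw [Set.indicator_of_mem (show x ∈ e ⁻¹' s from hx), Set.indicator_of_mem hx]
    simp
  · rw [Set.indicator_of_notMem (show x ∉ e ⁻¹' s from hx), Set.indicator_of_notMem hx]

/-- Entropy of the image under a measurable equivalence which multiplies volumes by `c`. -/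
theorem dent_map [SigmaFinite (volume : Measure W)] (e : V ≃ᵐ W) {c : ℝ} (hc : 0 < c)
    (he : (volume : Measure V).map e = ENNReal.ofReal c⁻¹ • (volume : Measure W))
    {p : V → ℝ} (hp : Measurable p) (hp0 : ∀ x, 0 ≤ p x) (hpi : Integrable p)
    (hp1 : ∫ x, p x = 1) (hpl : Integrable fun x => Real.negMulLog (p x)) :
    dent (((volume : Measure V).withDensity fun x => ENNReal.ofReal (p x)).map e) =
      (∫ x, Real.negMulLog (p x)) + Real.log c := by
  have hm : Measurable fun x => ENNReal.ofReal (p x) := hp.ennreal_ofReal
  have hci : (0 : ℝ) ≤ c⁻¹ := by positivity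
  have h1 : ((volume : Measure V).withDensity fun x => ENNReal.ofReal (p x)).map e =
      (volume : Measure W).withDensity fun y => ENNReal.ofReal (c⁻¹ * p (e.symm y)) := by
    rw [map_withDensity_equiv _ e hm, he, withDensity_smul_measure, ← withDensity_smul _
      (hm.comp e.symm.measurable)]
    congr 1
    ext y
    simp only [Pi.smul_apply, Function.comp_apply, smul_eq_mul]
    rw [ENNReal.ofReal_mul hci]
  have hm2 : Measurable fun y : W => c⁻¹ * p (e.symm y) :=
    (hp.comp e.symm.measurable).const_mul _
  rw [h1, dent_withDensity hm2 fun y => mul_nonneg hci (hp0 _)]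
  have hvol : ∀ g : V → ℝ, ∫ y : W, g (e.symm y) = c * ∫ x, g x := by
    intro g
    have h2 : ∫ y, g (e.symm y) ∂((volume : Measure V).map e) = ∫ x, g x := by
      rw [integral_map_equiv]
      simp
    rw [he, integral_smul_measure, ENNReal.toReal_ofReal hci] at h2
    rw [← h2, smul_eq_mul, ← mul_assoc, mul_inv_cancel₀ hc.ne', one_mul]
  rw [hvol fun x => Real.negMulLog (c⁻¹ * p x)]
  have h3 : ∀ x, Real.negMulLog (c⁻¹ * p x) =
      c⁻¹ * Real.negMulLog (p x) + (c⁻¹ * Real.log c) * p x := by
    intro x
    rw [Real.negMulLog_mul]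
    simp only [Real.negMulLog, Real.log_inv]
    ring
  simp_rw [h3]
  rw [integral_add (hpl.const_mul _) (hpi.const_mul _), integral_const_mul, integral_const_mul,
    hp1]
  field_simp

end Vale.Agent.P156.H653
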