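import Vale.Agent.P156.H653.Wave
import Vale.Agent.P156.H894.Wave

/-!
# P156, block D6 (C): the smoothed star law in isotropic coordinates

* `stdGaussian_eq` : the standard Gaussian has density `gk 1`;
* `law_add` : the law of `X + √t N` has density `pd mu t`;
* `isoInv_isoStar`, `isoStar_isoInv` : isotropic coordinates;
* `waveM_eq` : the wave is the image of the standard Gaussian of `VS q k` under `isoStar`;
* `smoothLaw_eq`, `edge_law` : the smoothed star law, the smoothed edge law.
-/

open MeasureTheory ProbabilityTheory Real Module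
open Vale.Agent.P156.H849
open scoped RealInnerProductSpace ENNReal Topology

noncomputable section

namespace Vale.Agent.P156.H653

section general

variable {V : Type*} [NormedAddCommGroup V] [InnerProductSpace ℝ V] [FiniteDimensional ℝ V]
  [MeasurableSpace V] [BorelSpace V]
variable {V' : Type*} [NormedAddCommGroup V'] [InnerProductSpace ℝ V'] [FiniteDimensional ℝ V']
  [MeasurableSpace V'] [BorelSpace V']

theorem stdGaussian_eq_gM : stdGaussian V = gM V 1 := by
  have := isProb_gM (V := V) one_pos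
  apply Measure.ext_of_charFun
  ext ξ
  rw [charFun_gM one_pos, charFun_stdGaussian]
  congr 1
  push_cast
  ring

/-- The standard Gaussian has density `gk 1`. -/
theorem stdGaussian_eq :
    stdGaussian V = (volume : Measure V).withDensity (fun x => ENNReal.ofReal (gk 1 x)) :=
  stdGaussian_eq_gM

/-- `√t N` has law `gM V t`. -/
theorem map_smul_stdGaussian {t : ℝ} (ht : 0 < t) :
    (stdGaussian V).map (fun x => √t • x) = gM V t := by
  have := isProb_gM (V := V) ht
  have hm : Measurable fun x : V => √t • x := by fun_prop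
  have : IsProbabilityMeasure ((stdGaussian V).map (fun x => √t • x)) :=
    Measure.isProbabilityMeasure_map hm.aemeasurable
  apply Measure.ext_of_charFun
  ext ξ
  rw [charFun_gM ht, charFun_map_smul, charFun_stdGaussian]
  congr 1
  have h1 : ‖√t • ξ‖ ^ 2 = t * ‖ξ‖ ^ 2 := by
    rw [norm_smul, mul_pow, Real.norm_eq_abs, sq_abs, Real.sq_sqrt ht.le]
  have h2 : ((‖√t • ξ‖ : ℝ) : ℂ) ^ 2 = ((‖√t • ξ‖ ^ 2 : ℝ) : ℂ) := by push_cast; rfl
  rw [h2, h1]
  push_cast
  ring

/-- The law of `X + Y`, `Y ~ gM V t`. -/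
theorem law_add_gM (μ : Measure V) [IsProbabilityMeasure μ] {t : ℝ} (ht : 0 < t) :
    (μ.prod (gM V t)).map (fun p => p.1 + p.2) =
      (volume : Measure V).withDensity (fun x => ENNReal.ofReal (pd μ t x)) := by
  have hG := isProb_gM (V := V) ht
  have hadd : Measurable fun p : V × V => p.1 + p.2 := by fun_prop
  ext s hs
  rw [Measure.map_apply hadd hs, Measure.prod_apply (hadd hs), withDensity_apply _ hs]
  have h1 : ∀ y : V, gM V t (Prod.mk y ⁻¹' ((fun p : V × V => p.1 + p.2) ⁻¹' s)) =
      ∫⁻ x in s, ENNReal.ofReal (gk t (x - y)) := by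
    intro y
    have hs' : MeasurableSet (Prod.mk y ⁻¹' ((fun p : V × V => p.1 + p.2) ⁻¹' s)) :=
      measurable_prodMk_left (hadd hs)
    rw [gM, withDensity_apply _ hs', ← lintegral_indicator hs', ← lintegral_indicator hs]
    rw [← lintegral_sub_right_eq_self _ y]
    refine lintegral_congr fun x => ?_
    by_cases hx : x ∈ s
    · rw [Set.indicator_of_mem hx, Set.indicator_of_mem]
      show y + (x - y) ∈ s
      simpa using hx
    · rw [Set.indicator_of_notMem hx, Set.indicator_of_notMem]
      show ¬ (y + (x - y) ∈ s)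
      simpa using hx
  simp_rw [h1]
  have h2 : ∀ x : V, ENNReal.ofReal (pd μ t x) = ∫⁻ y, ENNReal.ofReal (gk t (x - y)) ∂μ := by
    intro x
    rw [pd, ofReal_integral_eq_lintegral_ofReal (integrable_gk_shift ht x)
      (Filter.Eventually.of_forall fun y => (gk_pos t _).le)]
  simp_rw [h2]
  rw [lintegral_lintegral_swap]
  refine Measurable.aemeasurable ?_
  have : Continuous fun p : V × V => gk t (p.2 - p.1) :=
    (continuous_gk t).comp (by fun_prop)
  exact this.measurable.ennreal_ofReal

theorem measurable_addSmul (t : ℝ) : Measurable fun p : V × V => p.1 + √t • p.2 := by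
  fun_prop

/-- **The law of `X + √t N`.** -/
theorem law_add (μ : Measure V) [IsProbabilityMeasure μ] {t : ℝ} (ht : 0 < t) :
    (μ.prod (stdGaussian V)).map (fun p => p.1 + √t • p.2) =
      (volume : Measure V).withDensity (fun x => ENNReal.ofReal (pd μ t x)) := by
  rw [← law_add_gM μ ht, ← map_smul_stdGaussian (V := V) ht]
  have hm : Measurable fun x : V => √t • x := by fun_prop
  have h := Measure.map_prod_map μ (stdGaussian V) measurable_id hm
  rw [Measure.map_id] at h
  rw [h, Measure.map_map (by fun_prop) (measurable_id.prodMap hm)]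
  rfl

/-- Projection of the law of `X + √t N` by a coisometry. -/
theorem law_proj {P : V →L[ℝ] V'} (hP : ∀ v', P (P.adjoint v') = v') (μ : Measure V)
    [IsProbabilityMeasure μ] {t : ℝ} (ht : 0 < t) :
    ((volume : Measure V).withDensity (fun x => ENNReal.ofReal (pd μ t x))).map P =
      (volume : Measure V').withDensity (fun x => ENNReal.ofReal (pd (μ.map P) t x)) := by
  have hPm : Measurable P := P.measurable
  rw [← law_add μ ht, ← law_add (μ.map P) ht]
  have hstd : stdGaussian V' = (stdGaussian V).map P := by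
    rw [stdGaussian_eq_gM, stdGaussian_eq_gM, map_gM hP one_pos]
  rw [hstd, Measure.map_prod_map _ _ hPm hPm, Measure.map_map hPm (by fun_prop),
    Measure.map_map (by fun_prop) (hPm.prodMap hPm)]
  congr 1
  funext p
  simp

end general

variable {q k : ℕ}

theorem pil_add (l : Fin (q + 1)) (x y : VS q k) : pil l (x + y) = pil l x + pil l y := by
  simp [pil, Finset.sum_add_distrib]

theorem pil_smul (l : Fin (q + 1)) (a : ℝ) (x : VS q k) : pil l (a • x) = a • pil l x := by
  simp [pil, Finset.smul_sum, smul_comm a]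

theorem isoStar_add (lam : ℝ) (x y : VS q k) :
    isoStar q k lam (x + y) = isoStar q k lam x + isoStar q k lam y := by
  refine Prod.ext rfl ?_
  funext l
  show cc q lam • (x.fst + y.fst) + sg q lam • pil l (x + y) =
    (cc q lam • x.fst + sg q lam • pil l x) + (cc q lam • y.fst + sg q lam • pil l y)
  rw [pil_add, smul_add, smul_add]
  abel

theorem isoStar_smul (lam a : ℝ) (x : VS q k) :
    isoStar q k lam (a • x) = a • isoStar q k lam x := by
  refine Prod.ext rfl ?_
  funext l
  show cc q lam • (a • x.fst) + sg q lam • pil l (a • x) =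
    a • (cc q lam • x.fst + sg q lam • pil l x)
  rw [pil_smul, smul_add, smul_comm a (cc q lam), smul_comm a (sg q lam)]

/-- The (unnormalised) edge map as a continuous linear map. -/
def pjL (q k : ℕ) (l : Fin (q + 1)) : VS q k →L[ℝ] Ek k × Ek k :=
  (WithLp.prodContinuousLinearEquiv 2 ℝ (Ek k) (Ek k) : VE k →L[ℝ] Ek k × Ek k).comp (Pl q k l)

/-- `isoStar` as a continuous linear map. -/
def isoL (q k : ℕ) (lam : ℝ) : VS q k →L[ℝ] StarSp (q + 1) k :=
  ((ContinuousLinearMap.fst ℝ (Ek k) (Ek k)).comp (pjL q k 0)).prod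
    (ContinuousLinearMap.pi fun l =>
      cc q lam • (ContinuousLinearMap.fst ℝ (Ek k) (Ek k)).comp (pjL q k l) +
      sg q lam • (ContinuousLinearMap.snd ℝ (Ek k) (Ek k)).comp (pjL q k l))

theorem coe_isoL (lam : ℝ) : (isoL q k lam : VS q k → StarSp (q + 1) k) = isoStar q k lam := rfl

theorem measurable_isoStar (lam : ℝ) : Measurable (isoStar q k lam) := by
  rw [← coe_isoL]; exact (isoL q k lam).continuous.measurable

theorem measurable_isoInv (lam : ℝ) : Measurable (isoInv q k lam) := by
  have : Continuous (isoInv q k lam) := by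
    unfold isoInv
    fun_prop
  exact this.measurable

/-- `isoInv` is a left inverse of `isoStar`. -/
theorem isoInv_isoStar (hq : 1 ≤ q) {lam : ℝ} (hs : sg q lam ≠ 0) (x : VS q k) :
    isoInv q k lam (isoStar q k lam x) = x := by
  have hq0 : (q : ℝ) ≠ 0 := by positivity
  have hq1 : (q : ℝ) + 1 ≠ 0 := by positivity
  refine VS_ext rfl fun i => ?_
  show ((q : ℝ) / ((q : ℝ) + 1)) • ∑ l, simplex q l i • ((sg q lam)⁻¹ •
    ((cc q lam • x.fst + sg q lam • pil l x) - cc q lam • x.fst)) = x.snd i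
  have e1 : ∀ l, (sg q lam)⁻¹ • ((cc q lam • x.fst + sg q lam • pil l x) - cc q lam • x.fst) =
      pil l x := by
    intro l
    rw [add_sub_cancel_left, smul_smul, inv_mul_cancel₀ hs, one_smul]
  simp_rw [e1]
  unfold pil
  simp_rw [Finset.smul_sum, smul_smul]
  rw [Finset.sum_comm]
  simp_rw [← Finset.sum_smul]
  have e : ∀ j : Fin q, ∑ l, (q : ℝ) / ((q : ℝ) + 1) * (simplex q l i * simplex q l j) =
      if i = j then 1 else 0 := by
    intro j
    rw [← Finset.mul_sum, simplex_frame q hq]
    split_ifs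
    · field_simp
    · simp
  simp_rw [e, ite_smul, one_smul, zero_smul]
  simp

/-- `isoInv` is a right inverse on the support of the eigenvector relation. -/
theorem isoStar_isoInv (hq : 1 ≤ q) {lam : ℝ} (hs : sg q lam ≠ 0) (s : StarSp (q + 1) k)
    (hsum : ∑ l, s.2 l = lam • s.1) : isoStar q k lam (isoInv q k lam s) = s := by
  have hq0 : (q : ℝ) ≠ 0 := by positivity
  have hq1 : (q : ℝ) + 1 ≠ 0 := by positivity
  refine Prod.ext rfl ?_
  funext m
  set y : Fin (q + 1) → Ek k := fun l => (sg q lam)⁻¹ • (s.2 l - cc q lam • s.1) with hy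
  have hy0 : ∑ l, y l = 0 := by
    rw [hy, ← Finset.smul_sum, Finset.sum_sub_distrib, hsum, Finset.sum_const, Finset.card_univ,
      Fintype.card_fin, ← Nat.cast_smul_eq_nsmul ℝ, smul_smul, ← sub_smul]
    have : lam - ((q + 1 : ℕ) : ℝ) * cc q lam = 0 := by
      unfold cc; push_cast; field_simp; ring
    rw [this, zero_smul, smul_zero]
  have hpil : pil m (isoInv q k lam s) = y m := by
    show ∑ i, simplex q m i • (((q : ℝ) / ((q : ℝ) + 1)) • ∑ l, simplex q l i • y l) = y m
    simp_rw [Finset.smul_sum, smul_smul]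
    rw [Finset.sum_comm]
    simp_rw [← Finset.sum_smul]
    have e : ∀ l : Fin (q + 1), ∑ i, simplex q m i * ((q : ℝ) / ((q : ℝ) + 1) * simplex q l i) =
        (if m = l then 1 else 0) - 1 / ((q : ℝ) + 1) := by
      intro l
      have : ∀ i, simplex q m i * ((q : ℝ) / ((q : ℝ) + 1) * simplex q l i) =
          ((q : ℝ) / ((q : ℝ) + 1)) * (simplex q m i * simplex q l i) := fun i => by ring
      simp_rw [this]
      rw [← Finset.mul_sum, simplex_gram q hq]
      split_ifs
      · field_simp; ring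
      · field_simp; ring
    simp_rw [e, sub_smul, Finset.sum_sub_distrib, ← Finset.smul_sum, hy0]
    simp
  show cc q lam • s.1 + sg q lam • pil m (isoInv q k lam s) = s.2 m
  rw [hpil, hy]
  simp only
  rw [smul_smul, mul_inv_cancel₀ hs, one_smul]
  abel

/-- The vector dual to `dualSt l0 l` in isotropic coordinates. -/
def dvec (lam : ℝ) (l0 : Ek k) (l : Fin (q + 1) → Ek k) : VS q k :=
  WithLp.toLp 2 (l0 + cc q lam • ∑ j, l j, WithLp.toLp 2 fun i =>
    sg q lam • ∑ j, simplex q j i • l j)

theorem dual_iso (lam : ℝ) (l0 : Ek k) (l : Fin (q + 1) → Ek k) (x : VS q k) :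
    H894.dualSt l0 l (isoStar q k lam x) = ⟪x, dvec lam l0 l⟫ := by
  rw [H894.dualSt_apply, inner_VS]
  show ⟪l0, x.fst⟫ + ∑ j, ⟪l j, cc q lam • x.fst + sg q lam • pil j x⟫ =
    ⟪x.fst, l0 + cc q lam • ∑ j, l j⟫ + ∑ i, ⟪x.snd i, sg q lam • ∑ j, simplex q j i • l j⟫
  unfold pil
  simp only [inner_add_right, inner_smul_right, inner_sum, Finset.sum_add_distrib,
    Finset.mul_sum]
  rw [real_inner_comm l0 x.fst, Finset.sum_comm, add_assoc]
  congr 2
  · exact Finset.sum_congr rfl fun j _ => by rw [real_inner_comm]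
  · refine Finset.sum_congr rfl fun i _ => Finset.sum_congr rfl fun j _ => ?_
    rw [real_inner_comm]

theorem norm_dvec (hq : 1 ≤ q) (lam : ℝ) (l0 : Ek k) (l : Fin (q + 1) → Ek k) :
    ‖(dvec lam l0 l : VS q k)‖ ^ 2 = ‖l0 + cc q lam • ∑ j, l j‖ ^ 2 +
        ∑ j, ‖H894.sp q lam • (l j - ((1 : ℝ) / ((q : ℝ) + 1)) • ∑ i, l i)‖ ^ 2 := by
  have hq0 : (q : ℝ) ≠ 0 := by positivity
  have hq1 : (q : ℝ) + 1 ≠ 0 := by positivity
  rw [norm_VS]
  show ‖l0 + cc q lam • ∑ j, l j‖ ^ 2 + ∑ i, ‖sg q lam • ∑ j, simplex q j i • l j‖ ^ 2 = _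
  congr 1
  have hsp : H894.sp q lam ^ 2 = sg q lam ^ 2 * (((q : ℝ) + 1) / q) := by
    rw [H894.sp, mul_pow, Real.sq_sqrt (by positivity)]
  -- left side
  have e1 : ∑ i : Fin q, ‖∑ j, simplex q j i • l j‖ ^ 2 =
      (((q : ℝ) + 1) / q) * ∑ j, ‖l j‖ ^ 2 - (1 / (q : ℝ)) * ‖∑ j, l j‖ ^ 2 := by
    have a1 : ∀ i : Fin q, ‖∑ j, simplex q j i • l j‖ ^ 2 =
        ∑ j, ∑ m, (simplex q j i * simplex q m i) * ⟪l j, l m⟫ := by
      intro i
      rw [← real_inner_self_eq_norm_sq, sum_inner]
      refine Finset.sum_congr rfl fun j _ => ?_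
      rw [inner_sum]
      refine Finset.sum_congr rfl fun m _ => ?_
      rw [inner_smul_left, inner_smul_right]
      simp only [RCLike.conj_to_real]
      ring
    simp_rw [a1]
    rw [Finset.sum_comm]
    have a2 : ∀ j : Fin (q + 1), ∑ i : Fin q, ∑ m, (simplex q j i * simplex q m i) * ⟪l j, l m⟫ =
        ∑ m, ((if j = m then (((q : ℝ) + 1) / q) * ⟪l j, l m⟫ else 0) -
          (1 / (q : ℝ)) * ⟪l j, l m⟫) := by
      intro j
      rw [Finset.sum_comm]
      refine Finset.sum_congr rfl fun m _ => ?_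
      rw [← Finset.sum_mul, simplex_gram q hq]
      split_ifs
      · field_simp; ring
      · ring
    simp_rw [a2, Finset.sum_sub_distrib, Finset.sum_ite_eq, Finset.mem_univ, if_true,
      ← Finset.mul_sum, real_inner_self_eq_norm_sq]
    congr 2
    rw [← real_inner_self_eq_norm_sq, sum_inner]
    exact Finset.sum_congr rfl fun j _ => (inner_sum _ _ _).symm
  have e2 : ∑ j, ‖l j - ((1 : ℝ) / ((q : ℝ) + 1)) • ∑ i, l i‖ ^ 2 =
      ∑ j, ‖l j‖ ^ 2 - (1 / ((q : ℝ) + 1)) * ‖∑ j, l j‖ ^ 2 := by
    have a1 : ∀ j, ‖l j - ((1 : ℝ) / ((q : ℝ) + 1)) • ∑ i, l i‖ ^ 2 = ‖l j‖ ^ 2 -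
        2 * (1 / ((q : ℝ) + 1)) * ⟪l j, ∑ i, l i⟫ +
        (1 / ((q : ℝ) + 1)) ^ 2 * ‖∑ i, l i‖ ^ 2 := by
      intro j
      rw [norm_sub_sq_real, inner_smul_right, norm_smul, mul_pow, Real.norm_eq_abs, sq_abs]
      ring
    simp_rw [a1]
    rw [Finset.sum_add_distrib, Finset.sum_sub_distrib, ← Finset.mul_sum, ← sum_inner,
      real_inner_self_eq_norm_sq, Finset.sum_const, Finset.card_univ, Fintype.card_fin,
      nsmul_eq_mul]
    push_cast
    field_simp
    ring
  simp_rw [norm_smul, mul_pow, Real.norm_eq_abs, sq_abs]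
  rw [← Finset.mul_sum, ← Finset.mul_sum, e1, e2, hsp]
  field_simp

/-- **The wave in isotropic coordinates.** -/
theorem waveM_eq (hq : 1 ≤ q) (lam : ℝ) :
    waveM q k lam = (stdGaussian (VS q k)).map (isoStar q k lam) := by
  rw [← coe_isoL]
  refine Measure.ext_of_charFunDual (funext fun L => ?_)
  obtain ⟨l0, l, rfl⟩ := H894.exists_dualSt L
  rw [H894.charFun_waveM, charFunDual_map, ← norm_dvec hq]
  have h : (H894.dualSt l0 l).comp (isoL q k lam) = innerSL ℝ (dvec lam l0 l) := by
    refine ContinuousLinearMap.ext fun x => ?_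
    rw [ContinuousLinearMap.comp_apply, coe_isoL, dual_iso, innerSL_apply_apply, real_inner_comm]
  rw [h, charFunDual_stdGaussian, innerSL_apply_norm]
  congr 1
  push_cast
  ring

/-- **The smoothed star law.** -/
theorem smoothLaw_eq (hq : 1 ≤ q) {lam : ℝ} (hc : cc q lam ^ 2 < 1)
    (mu : Measure (StarSp (q + 1) k)) [IsProbabilityMeasure mu]
    (hsupp : ∀ᵐ s ∂mu, ∑ l, s.2 l = lam • s.1) {t : ℝ} (ht : 0 < t) :
    smoothLaw lam mu t = ((volume : Measure (VS q k)).withDensity fun x =>
      ENNReal.ofReal (pd (mu.map (isoInv q k lam)) t x)).map (isoStar q k lam) := by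
  have hs : sg q lam ≠ 0 := by
    unfold sg
    exact (Real.sqrt_pos.2 (by linarith)).ne'
  have hI := measurable_isoStar (q := q) (k := k) lam
  have hJ := measurable_isoInv (q := q) (k := k) lam
  have : IsProbabilityMeasure (mu.map (isoInv q k lam)) :=
    Measure.isProbabilityMeasure_map hJ.aemeasurable
  have hmu : mu = (mu.map (isoInv q k lam)).map (isoStar q k lam) := by
    rw [Measure.map_map hI hJ]
    conv_lhs => rw [← Measure.map_id (μ := mu)]
    refine Measure.map_congr ?_
    filter_upwards [hsupp] with s hsum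
    exact (isoStar_isoInv hq hs s hsum).symm
  rw [← law_add (mu.map (isoInv q k lam)) ht, smoothLaw, waveM_eq hq]
  have hpr : mu.prod ((stdGaussian (VS q k)).map (isoStar q k lam)) =
      ((mu.map (isoInv q k lam)).map (isoStar q k lam)).prod
        ((stdGaussian (VS q k)).map (isoStar q k lam)) := by rw [← hmu]
  rw [hpr, Measure.map_prod_map _ _ hI hI, Measure.map_map (by fun_prop) (hI.prodMap hI),
    Measure.map_map hI (measurable_addSmul t)]
  congr 1
  funext p
  show isoStar q k lam p.1 + √t • isoStar q k lam p.2 = isoStar q k lam (p.1 + √t • p.2)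
  rw [isoStar_add, isoStar_smul]

theorem edgeP_isoStar (lam : ℝ) (l : Fin (q + 1)) (x : VS q k) :
    edgeP l (isoStar q k lam x) = isoEdge q k lam (Pl q k l x) := rfl

/-- **The smoothed edge law.** -/
theorem edge_law (hq : 1 ≤ q) {lam : ℝ} (hc : cc q lam ^ 2 < 1)
    (mu : Measure (StarSp (q + 1) k)) [IsProbabilityMeasure mu]
    (hsupp : ∀ᵐ s ∂mu, ∑ l, s.2 l = lam • s.1) {t : ℝ} (ht : 0 < t) (l : Fin (q + 1)) :
    (smoothLaw lam mu t).map (edgeP l) = ((volume : Measure (VE k)).withDensity fun x =>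
      ENNReal.ofReal (pd ((mu.map (isoInv q k lam)).map (Pl q k l)) t x)).map
        (isoEdge q k lam) := by
  have hI := measurable_isoStar (q := q) (k := k) lam
  have hJ := measurable_isoInv (q := q) (k := k) lam
  have : IsProbabilityMeasure (mu.map (isoInv q k lam)) :=
    Measure.isProbabilityMeasure_map hJ.aemeasurable
  have hE : Measurable (edgeP (q := q) (k := k) l) := by
    unfold edgeP; fun_prop
  have hE' : Measurable (isoEdge q k lam) := by
    have : Continuous (isoEdge q k lam) := by unfold isoEdge; fun_prop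
    exact this.measurable
  rw [smoothLaw_eq hq hc mu hsupp ht, ← law_proj (Pl_adjoint hq l) (mu.map (isoInv q k lam)) ht,
    Measure.map_map hE hI, Measure.map_map hE' (Pl q k l).measurable]
  rfl

end Vale.Agent.P156.H653
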